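import Vale.Agent.P215Z.Top.Defs

/-!
# P215: adding the collar to a lifted disc
-/

noncomputable section
namespace Vale.Agent.P215Z
open P215.H788

namespace Collar

theorem norm_le (x : Disc) : ‖x.1‖ ≤ 1 := mem_closedBall_zero_iff.1 x.2

theorem max_pos (x : Disc) : 0 < max (1 / 2) ‖x.1‖ := lt_max_of_lt_left (by norm_num)

/-- doubling, followed by the radial retraction to the disc -/
def pr (x : Disc) : Disc := ⟨(max (1 / 2) ‖x.1‖)⁻¹ • x.1, by
  rw [mem_closedBall_zero_iff, norm_smul, norm_inv, Real.norm_of_nonneg (max_pos x).le,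
    inv_mul_le_iff₀ (max_pos x), mul_one]
  exact le_max_right _ _⟩

theorem continuous_pr : Continuous pr :=
  Continuous.subtype_mk (((continuous_const.max continuous_subtype_val.norm).inv₀
    fun x => (max_pos x).ne').smul continuous_subtype_val) _

theorem exists_circ {x : Disc} (h : 1 / 2 < ‖x.1‖) : ∃ z : Circ, pr x = z.toDisc := by
  refine ⟨⟨(pr x).1, ?_⟩, rfl⟩
  rw [mem_sphere_zero_iff_norm]
  show ‖(max (1 / 2) ‖x.1‖)⁻¹ • x.1‖ = 1
  rw [max_eq_right h.le, norm_smul, norm_inv, norm_norm, inv_mul_cancel₀ (by linarith)]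

theorem pr_circ (z : Circ) : pr z.toDisc = z.toDisc := by
  have h : ‖z.1‖ = 1 := mem_sphere_zero_iff_norm.1 z.2
  apply Subtype.ext
  show (max (1 / 2) ‖z.1‖)⁻¹ • z.1 = z.1
  rw [h, max_eq_right (by norm_num), inv_one, one_smul]

/-- the depth in the collar -/
def dep (x : Disc) : ℝ := max 0 (3 * ‖x.1‖ - 3 / 2)

/-- the widening of the collar -/
def wid (x : Disc) : ℝ := max 0 (9 / 2 * ‖x.1‖ - 15 / 4)

/-- the displacement -/
def del (x : Disc) : R4 := ![0, wid x * (pr x).1.2, wid x * (pr x).1.1, - dep x]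

theorem continuous_del : Continuous del := by
  have h1 : Continuous dep := by unfold dep; fun_prop
  have h2 : Continuous wid := by unfold wid; fun_prop
  have h3 : Continuous fun x => (pr x).1 := continuous_subtype_val.comp continuous_pr
  refine continuous_pi fun j => ?_
  fin_cases j
  · exact continuous_const
  · exact h2.mul h3.snd
  · exact h2.mul h3.fst
  · exact h1.neg

theorem del_inner {x : Disc} (h : ‖x.1‖ ≤ 1 / 2) : del x = 0 := by
  have h1 : dep x = 0 := max_eq_left (by linarith)
  have h2 : wid x = 0 := max_eq_left (by linarith)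
  funext j
  fin_cases j <;> simp [del, h1, h2]

/-- the linear parts of the chart changes -/
def sg : F3 →* Equiv.Perm (Fin 4) := FreeGroup.lift ppi

/-- the new maps -/
def ff (D : Lifted0) (g : F3) (x : Disc) : R4 := fun j => D.f g (pr x) j + del x (sg g j)

theorem ff_inner (D : Lifted0) (g : F3) {x : Disc} (h : ‖x.1‖ ≤ 1 / 2) :
    ff D g x = D.f g (pr x) := by
  funext j
  rw [ff, del_inner h, Pi.zero_apply, add_zero]

theorem ff_equiv (D : Lifted0) (g : F3) (i : Fin 3) (x : Disc) :
    ff D (g * FreeGroup.of i) x = thR i (ff D g x) := by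
  funext j
  have : sg (g * FreeGroup.of i) j = sg g (ppi i j) := by
    rw [map_mul, sg, FreeGroup.lift_apply_of]
    rfl
  simp only [ff, thR, D.equiv, this]
  ring

theorem ff_ring (D : Lifted0) {x : Disc} {z : Circ} (h : pr x = z.toDisc) :
    ff D 1 x = ![15, 9 / 2 + (3 / 4 + wid x) * z.1.2, 5 / 2 + (3 / 4 + wid x) * z.1.1,
      3 / 2 - dep x] := by
  funext j
  rw [ff, map_one, h, (D.bd z).2, del, h]
  fin_cases j <;> simp [Circ.toDisc] <;> ring

theorem not_Qo {y : R4} (h : y 0 = 15) (l : Lg) : y ∉ Qo l := by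
  intro hy
  have h1 := (hy 0).2
  have h2 : org l 0 ≤ 9 := by
    obtain ⟨i, b⟩ := l
    fin_cases i <;> cases b <;> simp [org]
  have h3 : (org l 0 : ℝ) ≤ 9 := by exact_mod_cast h2
  linarith

theorem thR_mem {i : Fin 3} {y : R4} (h : y ∈ Qo (i, true)) : thR i y ∈ Qo (i, false) := by
  intro j
  have := h (ppi i j)
  simp only [thR, Int.cast_sub]
  constructor <;> linarith [this.1, this.2]

theorem eq_one (D : Lifted0) {g : F3} {z : Circ} (h : z.toDisc ∈ D.V g) : g = 1 := by
  have h0 : D.f 1 z.toDisc 0 = 15 := by rw [(D.bd z).2]; rfl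
  rcases D.two g 1 _ h (D.bd z).1 with h1 | ⟨i, h1, h2⟩ | ⟨i, -, h2⟩
  · exact h1
  · have := thR_mem h2
    rw [← D.equiv, ← h1] at this
    exact absurd this (not_Qo h0 _)
  · exact absurd h2 (not_Qo h0 _)

theorem dep_le (x : Disc) : dep x ≤ 3 / 2 := max_le (by norm_num) (by linarith [norm_le x])

theorem wid_le (x : Disc) : wid x ≤ 3 / 4 := max_le (by norm_num) (by linarith [norm_le x])

theorem ring_mem {r τ : ℝ} (z : Circ) (h1 : 3 / 4 ≤ r) (h2 : r ≤ 3 / 2) (h3 : 0 ≤ τ) (h4 : τ < 3) :
    (![15, 9 / 2 + r * z.1.2, 5 / 2 + r * z.1.1, τ] : R4) ∈ OO' := by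
  have hz : max |z.1.1| |z.1.2| = 1 := mem_sphere_zero_iff_norm.1 z.2
  have a1 := abs_le.1 ((le_max_left _ _).trans hz.le)
  have a2 := abs_le.1 ((le_max_right _ _).trans hz.le)
  have b1 : -(3 / 2) ≤ r * z.1.1 ∧ r * z.1.1 ≤ 3 / 2 := ⟨by nlinarith, by nlinarith⟩
  have b2 : -(3 / 2) ≤ r * z.1.2 ∧ r * z.1.2 ≤ 3 / 2 := ⟨by nlinarith, by nlinarith⟩
  refine ⟨⟨fun j hj => ?_, fun c hc => ?_⟩, h3, h4⟩
  · fin_cases j
    · simp [boxHi]
      norm_num
    · simp [boxHi]
      constructor <;> linarith [b2.1, b2.2]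
    · simp [boxHi]
      constructor <;> linarith [b1.1, b1.2]
    · exact absurd rfl hj
  · have key : ∀ c : Pt × Pt, c.2 0 ≤ 14 → ∃ j : Fin 4, j ≠ 3 ∧
        ((![15, 9 / 2 + r * z.1.2, 5 / 2 + r * z.1.1, τ] : R4) j < (c.1 j : ℝ) ∨
          (c.2 j : ℝ) < (![15, 9 / 2 + r * z.1.2, 5 / 2 + r * z.1.1, τ] : R4) j) := by
      intro c h
      have h' : (c.2 0 : ℝ) ≤ 14 := by exact_mod_cast h
      exact ⟨0, by decide, Or.inr (by simp; linarith)⟩
    simp only [caves, List.mem_cons, List.not_mem_nil, or_false] at hc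
    rcases hc with rfl | rfl | rfl | rfl | rfl | rfl | rfl | rfl | rfl | rfl | rfl | rfl | rfl | rfl
    iterate 5 exact key _ (by simp)
    · rcases max_choice |z.1.1| |z.1.2| with e | e <;> rw [hz] at e <;>
        rcases (abs_eq zero_le_one).1 e.symm with e | e
      · exact ⟨2, by decide, Or.inr (by simp [e]; linarith)⟩
      · exact ⟨2, by decide, Or.inl (by simp [e]; linarith)⟩
      · exact ⟨1, by decide, Or.inr (by simp [e]; linarith)⟩
      · exact ⟨1, by decide, Or.inl (by simp [e]; linarith)⟩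
    iterate 7 exact key _ (by simp)
    · exact ⟨2, by decide, Or.inl (by simp; linarith [b1.2])⟩

/-- a point of the new disc is in the old part or in the collar -/
theorem cases_ring (D : Lifted0) {g : F3} {x : Disc} (h : pr x ∈ D.V g) :
    (∀ k, ff D k x = D.f k (pr x)) ∨ (g = 1 ∧ ∃ z : Circ, pr x = z.toDisc) := by
  rcases le_or_gt ‖x.1‖ (1 / 2) with h1 | h1
  · exact Or.inl fun k => ff_inner D k h1
  · obtain ⟨z, hz⟩ := exists_circ h1
    exact Or.inr ⟨eq_one D (hz ▸ h), z, hz⟩

theorem ring_zero (D : Lifted0) {x : Disc} {z : Circ} (h : pr x = z.toDisc) :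
    ff D 1 x 0 = 15 := by
  rw [ff_ring D h]
  rfl

theorem sep_ring (D : Lifted0) {g : F3} {x y : Disc} {z : Circ} (hx : x ∈ D.V g)
    (h : pr y = z.toDisc) (e : D.f g x = ff D 1 y) : g = 1 := by
  rcases le_or_gt (dep y) 1 with h1 | h1
  · have h2 : wid y = 0 := max_eq_left (by linarith [(le_max_right _ _).trans h1])
    rw [ff_ring D h, h2, add_zero] at e
    have h3 : 0 ≤ dep y := le_max_left _ _
    exact D.strip g x hx z (3 / 2 - dep y) (by linarith) (by linarith) e
  · obtain ⟨l, hl⟩ := D.low g x hx (by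
      rw [e, ff_ring D h]
      show 3 / 2 - dep y < 1 / 2
      linarith)
    exact absurd hl (not_Qo (by rw [e, ring_zero D h]) l)

end Collar

open Collar in
theorem exists_collar (D : Lifted0) : Nonempty Lifted1 := by
  refine ⟨{ f := ff D
            cont := fun g => continuous_pi fun j =>
              ((continuous_apply j).comp ((D.cont g).comp continuous_pr)).add
                ((continuous_apply _).comp continuous_del)
            equiv := ff_equiv D
            V := fun g => pr ⁻¹' D.V g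
            isOpen := fun g => (D.isOpen g).preimage continuous_pr
            cover := fun x => D.cover (pr x)
            mem := fun g x hx => ?_
            bot := fun g x hx => ?_
            two := fun g g' x hx hx' => ?_
            toB := fun g i x hx hq => ?_
            toA := fun g i x hx hq => ?_
            sep := fun g g' x y hx hy e => ?_
            bd := fun z => ?_ }⟩
  · rcases cases_ring D hx with h | ⟨rfl, z, hz⟩
    · rw [h]
      exact D.mem g _ hx
    · rw [ff_ring D hz]
      have h1 : 0 ≤ wid x := le_max_left _ _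
      have h2 : 0 ≤ dep x := le_max_left _ _
      exact ring_mem z (by linarith) (by linarith [wid_le x]) (by linarith [dep_le x])
        (by linarith)
  · rcases cases_ring D hx with h | ⟨rfl, z, hz⟩
    · rw [h]
      exact D.bot g _ hx
    · intro _
      rw [ring_zero D hz]
      norm_num
  · rcases cases_ring D hx with h | ⟨rfl, z, hz⟩
    · rw [h, h]
      exact D.two g g' _ hx hx'
    · have h : pr x ∈ D.V g' := hx'
      exact Or.inl (eq_one D (hz ▸ h)).symm
  · rcases cases_ring D hx with h | ⟨rfl, z, hz⟩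
    · exact D.toB g i _ hx (h g ▸ hq)
    · exact absurd hq (not_Qo (ring_zero D hz) _)
  · rcases cases_ring D hx with h | ⟨h1, z, hz⟩
    · exact D.toA g i _ hx (h g ▸ hq)
    · have := thR_mem hq
      rw [← ff_equiv, h1] at this
      exact absurd this (not_Qo (ring_zero D hz) _)
  · rcases cases_ring D hx with h | ⟨rfl, z, hz⟩ <;>
      rcases cases_ring D hy with h' | ⟨rfl, z', hz'⟩
    · exact D.sep g g' _ _ hx hy (by rw [← h, ← h', e])
    · exact sep_ring D hx hz' (by rw [← h, e])
    · exact (sep_ring D hy hz (by rw [← h', e])).symm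
    · rfl
  · refine ⟨by rw [Set.mem_preimage, pr_circ]; exact (D.bd z).1, ?_⟩
    have h : ‖z.toDisc.1‖ = 1 := mem_sphere_zero_iff_norm.1 z.2
    have h1 : dep z.toDisc = 3 / 2 := by rw [dep, h]; norm_num
    have h2 : wid z.toDisc = 3 / 4 := by rw [wid, h]; norm_num
    rw [ff_ring D (pr_circ z), h1, h2]
    norm_num

end Vale.Agent.P215Z
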