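import Vale.Agent.P215Z.Top.Defs
import Vale.Agent.P215Z.Top.Discr.Main
import Vale.Agent.P215Z.Top.Discr.Stair

noncomputable section
namespace Vale.Agent.P215Z
open P215.H788

theorem exists_discData (D : Lifted1) : Nonempty DiscData :=
  (Discr.exists_pre D).elim fun P => P.disc

end Vale.Agent.P215Z
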