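import Vale.Agent.P215Z.Top.Emb.Inj
import Vale.Agent.P215Z.Top.Emb.Inj2
import Vale.Agent.P215Z.Top.Emb.Mem

noncomputable section
namespace Vale.Agent.P215Z
open P215.H788

theorem exists_emb : Nonempty EmbData :=
  ⟨⟨Emb.emb, Emb.cont, Emb.mem, Emb.low, Emb.glue, Emb.inj, Emb.inj2, Emb.att⟩⟩

end Vale.Agent.P215Z
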