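import Vale.Agent.P215Z.Top.Cover

/-!
# P215: the lifting step for arbitrary continuous discs
-/

noncomputable section
namespace Vale.Agent.P215Z
open P215.H788

namespace Cov

open Set Topology

variable {e : EmbData} {f : C(Disc, G0.Thickening)}

theorem exists_liftS (e : EmbData) (hb0 : ∀ z : Circ, f z.toDisc = G0.attach (z, Disc.zero)) :
    ∃ F : Disc → Wt, Continuous F ∧ (∀ x, pr (F x) = jm e (f x)) ∧
      ∀ z : Circ, F z.toDisc = pt 1 (bc z) := by
  have : ContractibleSpace Disc := conv.contractibleSpace ⟨0, by simp⟩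
  have : LocallyPathConnectedSpace Disc := conv.locallyPathConnectedSpace
  have hc : Continuous fun x : Disc => jm e (f x) := (continuous_jm e).comp f.continuous
  have hb : ∀ z : Circ, pr (pt 1 (bc z)) = jm e (f z.toDisc) := fun z => by
    rw [hb0, jm_bc]
  obtain ⟨F, ⟨h0, h1⟩, -⟩ := cover.isCoveringMap.existsUnique_continuousMap_lifts ⟨_, hc⟩
    z0.toDisc (pt 1 (bc z0)) (hb z0)
  refine ⟨F, F.continuous, congrFun h1, fun z => ?_⟩
  have : PreconnectedSpace Circ := Subtype.preconnectedSpace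
    (isPreconnected_sphere (by simp [← Module.finrank_eq_rank]) _ _)
  have hi : Continuous Circ.toDisc := continuous_subtype_val.subtype_mk _
  exact congrFun (cover.isCoveringMap.eq_of_comp_eq (g₁ := fun z : Circ => F z.toDisc)
    (g₂ := fun z : Circ => pt 1 (bc z)) (F.continuous.comp hi)
    ((continuous_pt 1).comp continuous_bc)
    (funext fun z => (congrFun h1 z.toDisc).trans (hb z).symm) z0 h0) z

theorem liftedS (hb0 : ∀ z : Circ, f z.toDisc = G0.attach (z, Disc.zero))
    (hin : ∀ x p, f x = G0.attach p → ‖x.1‖ = 1)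
    (hK : ∀ (x y : Disc) (h : f x = f y) (c : Path G0.basePt (f x)) (l : Path x y),
      psi e (FundamentalGroup.fromPath (Path.Homotopic.Quotient.mk
        ((c.trans ((l.map f.continuous).cast rfl h)).trans c.symm))) = 1) :
    Nonempty Lifted0 := by
  obtain ⟨F, hF, h1, h2⟩ := exists_liftS e hb0
  have hinj : ∀ x y, pr (F x) = pr (F y) → F x = F y := by
    intro x y h
    rw [h1, h1] at h
    have hxy := jm_inj e h
    have : ContractibleSpace Disc := conv.contractibleSpace ⟨0, by simp⟩
    let m0 : Path z0.toDisc x := PathConnectedSpace.somePath _ _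
    let m : Path x y := PathConnectedSpace.somePath _ _
    let c : Path G0.basePt (f x) := (m0.map f.continuous).cast (hb0 z0).symm rfl
    have h3 := cover.fundamentalGroupToMulOpposite_eq_one_iff.1 (hK x y hxy c m)
    refine lift_eq cover hF m0 m (e0 e) (h2 z0) (c.map (continuous_jm e))
      (((m.map f.continuous).cast rfl hxy).map (continuous_jm e)) (fun t => (h1 _).symm)
      (fun t => (h1 _).symm) ?_
    rw [Path.map_symm, ← Path.map_trans, ← Path.map_trans]
    exact h3
  have hp : ∀ x, ∃ g q, F x = pt g (e.emb q) := fun x => by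
    obtain ⟨q, hq⟩ := Quot.exists_rep (f x)
    have h3 : pr (F x) = pr (pt 1 (e.emb q)) := by
      rw [h1, ← hq]
      rfl
    obtain ⟨g, hg⟩ := pr_eq h3
    exact ⟨g, q, hg⟩
  refine ⟨{
    f := fun g x => (rho g).symm (dev (F x))
    cont := fun g => (rho g).symm.continuous.comp (continuous_dev.comp hF)
    equiv := fun g i x => rho_symm g i _
    V := fun g => F ⁻¹' (pt g '' OO)
    isOpen := fun g => (isOpen_chart g isOpen_OO).preimage hF
    cover := fun x => ?_
    mem := fun g x hx => ?_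
    bot := fun g x hx h => absurd h (of_mem hx).2.2.1.ne'
    two := fun g g' x hx hx' => ?_
    toB := fun g i x hx h => ⟨_, Qo_sub (thR_mem h), ((of_mem hx).1.trans (pt_glue g h)).symm⟩
    toA := fun g i x hx h => ⟨_, Qo_sub h, ?_⟩
    sep := fun g g' x y hx hy h => ?_
    bd := fun z => ⟨⟨_, bc_mem e z, (h2 z).symm⟩, coord (h2 z)⟩
    strip := fun g x hx z τ k1 k2 h => ?_
    low := fun g x hx h => ?_ }⟩
  · obtain ⟨g, q, h⟩ := hp x
    exact ⟨g, _, e.mem q, h.symm⟩
  · have := (of_mem hx).2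
    exact ⟨this.1, this.2.1.le, this.2.2⟩
  · rcases pt_eq.1 ((of_mem hx).1.symm.trans (of_mem hx').1) with
      ⟨k, -⟩ | ⟨i, k1, k2, -⟩ | ⟨i, k1, k2, -⟩
    · exact Or.inl k
    · exact Or.inr (Or.inl ⟨i, k2, k1⟩)
    · exact Or.inr (Or.inr ⟨i, k2, k1⟩)
  · rw [pt_glue g h, ← rho_symm]
    exact (of_mem hx).1.symm
  · have k1 := (of_mem hx).1
    have k2 := (of_mem hy).1
    have k3 : pr (F x) = pr (F y) := by rw [k1, k2, pr_pt g, pr_pt g', h]
    have k4 := hinj _ _ k3
    rw [k1, k2, h] at k4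
    exact pt_inj k4
  · have k3 := (of_mem hx).1
    rw [h] at k3
    let v : Disc := ⟨(0, τ - 3 / 2), by
      simp only [mem_closedBall_zero_iff, Prod.norm_mk, Real.norm_eq_abs, abs_zero, sup_le_iff,
        abs_le]
      exact ⟨zero_le_one, by linarith, by linarith⟩⟩
    have k4 : jm e (f x) = jm e (G0.attach (z, v)) := by
      rw [← h1, jm_attach e z v rfl, k3, pr_pt]
      simp [v]
    have k5 := hin _ _ (jm_inj e k4)
    let z' : Circ := ⟨x.1, mem_sphere_zero_iff_norm.2 k5⟩
    have k6 : x = z'.toDisc := rfl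
    rw [k6, h2] at k3
    rcases pt_eq.1 k3 with ⟨k, -⟩ | ⟨i, k, -, -⟩ | ⟨i, k, -, -⟩
    · exact k.symm
    · have := lt_of_Qo k
      norm_num [bc] at this
    · have := lt_of_Qo k
      norm_num at this
  · obtain ⟨g', q, k⟩ := hp x
    rcases pt_eq.1 ((of_mem hx).1.symm.trans k) with ⟨-, k1⟩ | ⟨i, k1, -, -⟩ | ⟨i, k1, -, k3⟩
    · have := e.low q
      rw [← k1] at this
      exact absurd h (not_lt.2 this)
    · exact ⟨_, k1⟩
    · exact ⟨(i, false), k3 ▸ thR_mem k1⟩

end Cov

theorem exists_phiS (e : EmbData) :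
    ∃ φ : FundamentalGroup G0.Thickening G0.basePt →* FreeGroup (Fin 2),
      ∀ f : C(Disc, G0.Thickening), (∀ z : Circ, f z.toDisc = G0.attach (z, Disc.zero)) →
        (∀ x p, f x = G0.attach p → ‖x.1‖ = 1) →
        (∀ (x y : Disc) (h : f x = f y) (c : Path G0.basePt (f x)) (l : Path x y),
          φ (FundamentalGroup.fromPath (Path.Homotopic.Quotient.mk
            ((c.trans ((l.map f.continuous).cast rfl h)).trans c.symm))) = 1) →
        Nonempty Lifted0 := by
  obtain ⟨ι, hι⟩ := Cov.exists_inj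
  refine ⟨(ι.comp (MulEquiv.inv' F3).symm.toMonoidHom).comp (Cov.psi e), fun f h1 h2 hD =>
    Cov.liftedS (e := e) h1 h2 fun x y h c l => ?_⟩
  have h := hD x y h c l
  exact (hι.comp (MulEquiv.inv' F3).symm.injective) (h.trans (map_one
    (ι.comp (MulEquiv.inv' F3).symm.toMonoidHom)).symm)

end Vale.Agent.P215Z
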