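import Vale.Agent.P215Z.Top.Defs

/-! The plumbing cubes, and the covering space glued from the charts. -/

noncomputable section
namespace Vale.Agent.P215Z.Cov

open Set Topology

/-! ### the cubes -/

theorem org_sep : ∀ l l' : Lg, l ≠ l' →
    ∃ j, org l j + 3 ≤ org l' j ∨ org l' j + 3 ≤ org l j := by decide

theorem org_gap : ∀ i : Fin 3,
    ∃ j, org (i, true) j + 4 ≤ org (i, false) j ∨ org (i, false) j + 4 ≤ org (i, true) j := by
  decide

theorem org_box : ∀ (l : Lg) (j : Fin 4), 0 ≤ org l j ∧ org l j + 3 ≤ boxHi j := by decide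

theorem org_cave : ∀ l : Lg, ∀ c ∈ caves,
    ∃ j : Fin 4, j ≠ 3 ∧ (org l j + 3 ≤ c.1 j ∨ c.2 j ≤ org l j) := by decide

theorem org_zero : ∀ l : Lg, org l 0 + 3 ≤ 12 := by decide

theorem Qo_disj {l l' : Lg} {y : R4} (h : y ∈ Qo l) (h' : y ∈ Qo l') : l = l' := by
  by_contra hne
  obtain ⟨j, hj⟩ := org_sep l l' hne
  have h1 := h j
  have h2 := h' j
  rcases hj with hj | hj
  · have : (org l j : ℝ) + 3 ≤ org l' j := by exact_mod_cast hj
    linarith [h1.2, h2.1]
  · have : (org l' j : ℝ) + 3 ≤ org l j := by exact_mod_cast hj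
    linarith [h1.1, h2.2]

theorem Qo_gap {i : Fin 3} {y y' : R4} (h : y ∈ Qo (i, true)) (h' : y' ∈ Qo (i, false)) :
    1 ≤ dist y y' := by
  obtain ⟨j, hj⟩ := org_gap i
  have h1 := h j
  have h2 := h' j
  have h3 := dist_le_pi_dist y y' j
  rw [Real.dist_eq] at h3
  rcases hj with hj | hj
  · have : (org (i, true) j : ℝ) + 4 ≤ org (i, false) j := by exact_mod_cast hj
    linarith [h1.2, h2.1, neg_abs_le (y j - y' j)]
  · have : (org (i, false) j : ℝ) + 4 ≤ org (i, true) j := by exact_mod_cast hj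
    linarith [h1.1, h2.2, le_abs_self (y j - y' j)]

theorem Qo_sub {l : Lg} {y : R4} (h : y ∈ Qo l) : y ∈ OO := by
  have hb : ∀ j, 0 < y j ∧ y j < (boxHi j : ℝ) := fun j => by
    have h1 : (0 : ℝ) ≤ org l j := by exact_mod_cast (org_box l j).1
    have h2 : (org l j : ℝ) + 3 ≤ boxHi j := by exact_mod_cast (org_box l j).2
    exact ⟨by linarith [(h j).1], by linarith [(h j).2]⟩
  refine ⟨⟨fun j _ => hb j, fun c hc => ?_⟩, (hb 3).1, ?_⟩
  · obtain ⟨j, hj, h1⟩ := org_cave l c hc
    refine ⟨j, hj, h1.imp (fun h1 => ?_) fun h1 => ?_⟩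
    · have : (org l j : ℝ) + 3 ≤ c.1 j := by exact_mod_cast h1
      linarith [(h j).2]
    · have : (c.2 j : ℝ) ≤ org l j := by exact_mod_cast h1
      linarith [(h j).1]
  · have h2 := (hb 3).2
    have h3 : boxHi 3 = 3 := rfl
    rw [h3] at h2
    exact_mod_cast h2

theorem lt_of_Qo {l : Lg} {y : R4} (h : y ∈ Qo l) : y 0 < 12 := by
  have : (org l 0 : ℝ) + 3 ≤ 12 := by exact_mod_cast org_zero l
  linarith [(h 0).2]

theorem isOpen_Qo (l : Lg) : IsOpen (Qo l) := by
  have : Qo l = ⋂ j, {y : R4 | (org l j : ℝ) < y j} ∩ {y | y j < org l j + 3} := by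
    ext y
    simp [Qo]
  rw [this]
  exact isOpen_iInter_of_finite fun j => (isOpen_lt continuous_const (continuous_apply j)).inter
    (isOpen_lt (continuous_apply j) continuous_const)

theorem isOpen_OO : IsOpen OO := by
  have h1 : IsOpen {y : R4 | ∀ j : Fin 4, j ≠ 3 → 0 < y j ∧ y j < (boxHi j : ℝ)} := by
    have : {y : R4 | ∀ j : Fin 4, j ≠ 3 → 0 < y j ∧ y j < (boxHi j : ℝ)} =
        ⋂ j ∈ {j : Fin 4 | j ≠ 3}, {y : R4 | 0 < y j} ∩ {y | y j < (boxHi j : ℝ)} := by
      ext y
      simp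
    rw [this]
    exact (toFinite _).isOpen_biInter fun j _ =>
      (isOpen_lt continuous_const (continuous_apply j)).inter
        (isOpen_lt (continuous_apply j) continuous_const)
  have h2 : IsOpen {y : R4 | ∀ c ∈ caves,
      ∃ j : Fin 4, j ≠ 3 ∧ (y j < (c.1 j : ℝ) ∨ (c.2 j : ℝ) < y j)} := by
    have : {y : R4 | ∀ c ∈ caves, ∃ j : Fin 4, j ≠ 3 ∧ (y j < (c.1 j : ℝ) ∨ (c.2 j : ℝ) < y j)} =
        ⋂ c ∈ {c | c ∈ caves}, ⋃ j ∈ {j : Fin 4 | j ≠ 3},
          {y : R4 | y j < (c.1 j : ℝ)} ∪ {y | (c.2 j : ℝ) < y j} := by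
      ext y
      simp
    rw [this]
    exact (List.finite_toSet caves).isOpen_biInter fun c _ => isOpen_biUnion fun j _ =>
      (isOpen_lt (continuous_apply j) continuous_const).union
        (isOpen_lt continuous_const (continuous_apply j))
  exact (h1.inter h2).inter ((isOpen_lt continuous_const (continuous_apply 3)).inter
    (isOpen_lt (continuous_apply 3) continuous_const))

/-- the transition as a homeomorphism -/
def thE (i : Fin 3) : R4 ≃ₜ R4 where
  toFun := thR i
  invFun z j := z ((ppi i).symm j) - ((org (i, false) ((ppi i).symm j) - org (i, true) j : ℤ) : ℝ)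
  left_inv y := by
    funext j
    simp [thR]
  right_inv z := by
    funext j
    simp [thR]
  continuous_toFun := continuous_pi fun j => (continuous_apply _).add continuous_const
  continuous_invFun := continuous_pi fun j => (continuous_apply _).sub continuous_const

theorem thR_mem {i : Fin 3} {y : R4} (h : y ∈ Qo (i, true)) : thR i y ∈ Qo (i, false) := by
  intro j
  have := h (ppi i j)
  simp only [thR, Int.cast_sub]
  exact ⟨by linarith [this.1], by linarith [this.2]⟩

/-- the holonomy -/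
def rho : F3 →* (R4 ≃ₜ R4) := FreeGroup.lift fun i => (thE i)⁻¹

theorem rho_mul (g : F3) (i : Fin 3) (y : R4) :
    rho (g * FreeGroup.of i) (thR i y) = rho g y := by
  rw [map_mul, rho, FreeGroup.lift_apply_of]
  exact congrArg _ ((thE i).symm_apply_apply y)

theorem rho_symm (g : F3) (i : Fin 3) (y : R4) :
    (rho (g * FreeGroup.of i)).symm y = thR i ((rho g).symm y) := by
  rw [Homeomorph.symm_apply_eq, rho_mul, Homeomorph.apply_symm_apply]

/-! ### the covering space -/

/-- the discrete topology -/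
abbrev topF : TopologicalSpace F3 := ⊥

attribute [local instance] topF

theorem discF : DiscreteTopology F3 := ⟨rfl⟩

attribute [local instance] discF

/-- one gluing step -/
def St (a b : F3 × R4) : Prop :=
  ∃ i, a.2 ∈ Qo (i, true) ∧ b.1 = a.1 * FreeGroup.of i ∧ b.2 = thR i a.2

theorem St.not_trans {a b c : F3 × R4} (h : St a b) (h' : St b c) : False := by
  obtain ⟨i, h1, -, h3⟩ := h
  obtain ⟨j, k1, -, -⟩ := h'
  have := Qo_disj (h3 ▸ thR_mem h1) k1
  simp at this

theorem St.left {a b c : F3 × R4} (h : St a b) (h' : St c b) : a = c := by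
  obtain ⟨i, h1, h2, h3⟩ := h
  obtain ⟨j, k1, k2, k3⟩ := h'
  have e := Qo_disj (h3 ▸ thR_mem h1) (k3 ▸ thR_mem k1)
  obtain rfl : i = j := congrArg Prod.fst e
  exact Prod.ext (mul_right_cancel (h2.symm.trans k2)) ((thE i).injective (h3.symm.trans k3))

theorem St.right {a b c : F3 × R4} (h : St a b) (h' : St a c) : b = c := by
  obtain ⟨i, h1, h2, h3⟩ := h
  obtain ⟨j, k1, k2, k3⟩ := h'
  obtain rfl : i = j := congrArg Prod.fst (Qo_disj h1 k1)
  exact Prod.ext (h2.trans k2.symm) (h3.trans k3.symm)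

/-- the gluing relation -/
def sd : Setoid (F3 × R4) where
  r a b := a = b ∨ St a b ∨ St b a
  iseqv :=
    { refl := fun _ => Or.inl rfl
      symm := fun h => h.imp Eq.symm Or.symm
      trans := by
        rintro a b c (rfl | h | h) h'
        · exact h'
        · rcases h' with rfl | h' | h'
          · exact Or.inr (Or.inl h)
          · exact (h.not_trans h').elim
          · exact Or.inl (h.left h')
        · rcases h' with rfl | h' | h'
          · exact Or.inr (Or.inr h)
          · exact Or.inl (h.right h')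
          · exact (h'.not_trans h).elim }

/-- the covering space -/
def Wt : Type := Quotient sd

instance : TopologicalSpace Wt := inferInstanceAs (TopologicalSpace (Quotient sd))

/-- the point with coordinates `y` in the chart `g` -/
def pt (g : F3) (y : R4) : Wt := Quotient.mk sd (g, y)

theorem pt_eq {g g' : F3} {y y' : R4} : pt g y = pt g' y' ↔ (g = g' ∧ y = y') ∨
    (∃ i, y ∈ Qo (i, true) ∧ g' = g * FreeGroup.of i ∧ y' = thR i y) ∨
    (∃ i, y' ∈ Qo (i, true) ∧ g = g' * FreeGroup.of i ∧ y = thR i y') :=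
  Quotient.eq.trans (or_congr_left Prod.ext_iff)

theorem pt_glue (g : F3) {i : Fin 3} {y : R4} (h : y ∈ Qo (i, true)) :
    pt g y = pt (g * FreeGroup.of i) (thR i y) :=
  pt_eq.2 (Or.inr (Or.inl ⟨i, h, rfl, rfl⟩))

theorem exists_pt (w : Wt) : ∃ g y, w = pt g y := by
  obtain ⟨a, rfl⟩ := Quotient.exists_rep w
  exact ⟨a.1, a.2, rfl⟩

theorem continuous_pt (g : F3) : Continuous (pt g) :=
  continuous_quotient_mk'.comp (Continuous.prodMk_right g)

/-- the gluing step as a homeomorphism -/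
def up (i : Fin 3) : F3 × R4 ≃ₜ F3 × R4 :=
  (Homeomorph.mk (Equiv.mulRight (FreeGroup.of i)) continuous_of_discreteTopology
    continuous_of_discreteTopology).prodCongr (thE i)

theorem isOpen_chart (g : F3) {U : Set R4} (hU : IsOpen U) : IsOpen (pt g '' U) := by
  have hQ : ∀ i, IsOpen {a : F3 × R4 | a.2 ∈ Qo (i, true)} := fun i =>
    (isOpen_Qo _).preimage continuous_snd
  have hS : IsOpen (({g} : Set F3) ×ˢ U) := (isOpen_discrete _).prod hU
  have e : Quotient.mk sd ⁻¹' (pt g '' U) = ({g} : Set F3) ×ˢ U ∪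
      ((⋃ i, up i '' ({a : F3 × R4 | a.2 ∈ Qo (i, true)} ∩ ({g} : Set F3) ×ˢ U)) ∪
        ⋃ i, {a : F3 × R4 | a.2 ∈ Qo (i, true)} ∩ up i ⁻¹' (({g} : Set F3) ×ˢ U)) := by
    ext ⟨g', y'⟩
    constructor
    · rintro ⟨y, hy, h⟩
      rcases pt_eq.1 h with ⟨rfl, rfl⟩ | ⟨i, h1, rfl, rfl⟩ | ⟨i, h1, rfl, rfl⟩
      · exact Or.inl ⟨rfl, hy⟩
      · exact Or.inr (Or.inl (mem_iUnion.2 ⟨i, (g, y), ⟨h1, rfl, hy⟩, rfl⟩))
      · exact Or.inr (Or.inr (mem_iUnion.2 ⟨i, h1, rfl, hy⟩))
    · rintro (⟨h1, h2⟩ | h | h)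
      · obtain rfl : g' = g := h1
        exact ⟨y', h2, rfl⟩
      · obtain ⟨i, ⟨g'', y⟩, ⟨h1, h2, h3⟩, h4⟩ := mem_iUnion.1 h
        obtain rfl : g'' = g := h2
        rw [← h4]
        exact ⟨y, h3, pt_glue _ h1⟩
      · obtain ⟨i, h1, h2, h3⟩ := mem_iUnion.1 h
        obtain rfl : g' * FreeGroup.of i = g := h2
        exact ⟨thR i y', h3, (pt_glue _ h1).symm⟩
  refine isQuotientMap_quotient_mk'.isOpen_preimage.1 ?_
  change IsOpen (Quotient.mk sd ⁻¹' (pt g '' U))
  rw [e]
  exact hS.union ((isOpen_iUnion fun i => (up i).isOpenMap _ ((hQ i).inter hS)).union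
    (isOpen_iUnion fun i => (hQ i).inter (hS.preimage (up i).continuous)))

theorem St.smul (h : F3) {a b : F3 × R4} (k : St a b) : St (h * a.1, a.2) (h * b.1, b.2) := by
  obtain ⟨i, h1, h2, h3⟩ := k
  exact ⟨i, h1, by rw [h2, mul_assoc], h3⟩

instance : MulAction F3 Wt where
  smul h := Quotient.map (sa := sd) (sb := sd) (fun a => (h * a.1, a.2)) fun _ _ k =>
    k.imp (fun e => by rw [e]) fun k => k.imp (St.smul h) (St.smul h)
  one_smul w := by
    obtain ⟨g, y, rfl⟩ := exists_pt w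
    exact congrArg (fun g => pt g y) (one_mul g)
  mul_smul h h' w := by
    obtain ⟨g, y, rfl⟩ := exists_pt w
    exact congrArg (fun g => pt g y) (mul_assoc h h' g)

theorem smul_pt (h g : F3) (y : R4) : h • pt g y = pt (h * g) y := rfl

instance : ContinuousConstSMul F3 Wt where
  continuous_const_smul h := by
    refine (isQuotientMap_quotient_mk' (s := sd)).continuous_iff.2 ?_
    have h1 : Continuous fun a : F3 × R4 => (h * a.1, a.2) :=
      ((continuous_of_discreteTopology (f := fun g : F3 => h * g)).comp continuous_fst).prodMk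
        continuous_snd
    exact continuous_quotient_mk'.comp h1

/-- the developing map -/
def dev : Wt → R4 := Quotient.lift (s := sd) (fun a => rho a.1 a.2) (by
  rintro a b (rfl | ⟨i, -, h2, h3⟩ | ⟨i, -, h2, h3⟩)
  · rfl
  · rw [h2, h3, rho_mul]
  · rw [h2, h3, rho_mul])

theorem dev_pt (g : F3) (y : R4) : dev (pt g y) = rho g y := rfl

theorem continuous_dev : Continuous dev := by
  refine (isQuotientMap_quotient_mk' (s := sd)).continuous_iff.2 ?_
  exact continuous_prod_of_discrete_left.2 fun g => (rho g).continuous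

/-- the base -/
def Wb : Type := MulAction.orbitRel.Quotient F3 Wt

instance : TopologicalSpace Wb :=
  inferInstanceAs (TopologicalSpace (Quotient (MulAction.orbitRel F3 Wt)))

/-- the projection -/
def pr (w : Wt) : Wb := Quotient.mk (MulAction.orbitRel F3 Wt) w

theorem cover : IsQuotientCoveringMap pr F3 where
  toIsQuotientMap := isQuotientMap_quotient_mk' (s := MulAction.orbitRel F3 Wt)
  continuous_const_smul := continuous_const_smul
  apply_eq_iff_mem_orbit := Quotient.eq
  disjoint w := by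
    obtain ⟨g, y, rfl⟩ := exists_pt w
    refine ⟨pt g '' Metric.ball y (1 / 2), (isOpen_chart g Metric.isOpen_ball).mem_nhds
      ⟨y, Metric.mem_ball_self (by norm_num), rfl⟩, ?_⟩
    rintro h ⟨_, ⟨_, ⟨y1, h1, rfl⟩, rfl⟩, y2, h2, h3⟩
    have h4 : dist y1 y2 < 1 := by
      have := dist_triangle_right y1 y2 y
      rw [Metric.mem_ball] at h1 h2
      linarith
    rcases pt_eq.1 (h3.trans (smul_pt h g y1)) with ⟨k, -⟩ | ⟨i, k1, -, k3⟩ | ⟨i, k1, -, k3⟩
    · exact (mul_eq_right.1 k.symm)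
    · have := Qo_gap k1 (k3 ▸ thR_mem k1)
      rw [dist_comm] at this
      linarith
    · have := Qo_gap k1 (k3 ▸ thR_mem k1)
      linarith

theorem pr_pt (g : F3) (y : R4) : pr (pt g y) = pr (pt 1 y) := by
  have := cover.map_smul g (e := pt 1 y)
  rwa [smul_pt, mul_one] at this

theorem pr_eq {w : Wt} {y : R4} (h : pr w = pr (pt 1 y)) : ∃ g, w = pt g y := by
  obtain ⟨g, hg⟩ := cover.apply_eq_iff_mem_orbit.1 h
  exact ⟨g, hg.symm.trans ((smul_pt g 1 y).trans (by rw [mul_one]))⟩

theorem pt_inj {g g' : F3} {y : R4} (h : pt g y = pt g' y) : g = g' := by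
  rcases pt_eq.1 h with ⟨k, -⟩ | ⟨i, k1, -, k3⟩ | ⟨i, k1, -, k3⟩
  · exact k
  · have k4 := thR_mem k1
    rw [← k3] at k4
    simpa using Qo_disj k1 k4
  · have k4 := thR_mem k1
    rw [← k3] at k4
    simpa using Qo_disj k1 k4

end Vale.Agent.P215Z.Cov
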