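import Vale.Agent.P215Z.Core.Defs

/-! The free group of rank three embeds in the free group of rank two. -/

noncomputable section
namespace Vale.Agent.P215Z.Cov

/-- the shift -/
def shift : Multiplicative ℤ →* MulAut (FreeGroup ℤ) :=
  zpowersHom (MulAut (FreeGroup ℤ)) (FreeGroup.freeGroupCongr (Equiv.addRight (1 : ℤ)))

theorem shift_of (m : ℕ) (k : ℤ) :
    shift (Multiplicative.ofAdd (m : ℤ)) (FreeGroup.of k) = FreeGroup.of (k + m) := by
  change ((FreeGroup.freeGroupCongr (Equiv.addRight (1 : ℤ)) : MulAut (FreeGroup ℤ)) ^ (m : ℤ))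
    (FreeGroup.of k) = _
  rw [zpow_natCast]
  induction m generalizing k with
  | zero => simp
  | succ m ih =>
    rw [pow_succ, MulAut.mul_apply]
    change ((FreeGroup.freeGroupCongr (Equiv.addRight (1 : ℤ)) :
      MulAut (FreeGroup ℤ)) ^ m) (FreeGroup.map (fun i : ℤ => i + 1) (FreeGroup.of k)) = _
    rw [FreeGroup.map.of, ih]
    congr 1
    push_cast
    ring

theorem exists_inj : ∃ ι : F3 →* FreeGroup (Fin 2), Function.Injective ι := by
  let ι : F3 →* FreeGroup (Fin 2) := FreeGroup.lift fun i : Fin 3 =>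
    FreeGroup.of 1 ^ (i : ℕ) * FreeGroup.of 0 * (FreeGroup.of 1 ^ (i : ℕ))⁻¹
  let θ : FreeGroup (Fin 2) →* FreeGroup ℤ ⋊[shift] Multiplicative ℤ :=
    FreeGroup.lift fun b => if b = 0 then SemidirectProduct.inl (FreeGroup.of (0 : ℤ))
      else SemidirectProduct.inr (Multiplicative.ofAdd (1 : ℤ))
  have hx : θ (FreeGroup.of 0) = SemidirectProduct.inl (FreeGroup.of (0 : ℤ)) := by
    simp [θ]
  have hy : θ (FreeGroup.of 1) = SemidirectProduct.inr (Multiplicative.ofAdd (1 : ℤ)) := by
    simp [θ]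
  have h1 : θ.comp ι =
      (SemidirectProduct.inl).comp (FreeGroup.map fun i : Fin 3 => ((i : ℕ) : ℤ)) := by
    refine FreeGroup.ext_hom _ _ fun i => ?_
    rw [MonoidHom.comp_apply, MonoidHom.comp_apply, FreeGroup.lift_apply_of, FreeGroup.map.of,
      map_mul, map_mul, map_inv, map_pow, hx, hy, ← map_pow, ← ofAdd_nsmul, nsmul_eq_mul, mul_one,
      ← map_inv, ← SemidirectProduct.inl_aut, shift_of, zero_add]
  have h3 : Function.Injective (θ.comp ι) := by
    rw [h1, MonoidHom.coe_comp]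
    refine SemidirectProduct.inl_injective.comp (FreeGroup.map_injective ?_)
    intro i j hij
    have : ((i : ℕ) : ℤ) = ((j : ℕ) : ℤ) := hij
    omega
  rw [MonoidHom.coe_comp] at h3
  exact ⟨ι, h3.of_comp⟩

end Vale.Agent.P215Z.Cov
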