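import Vale.Agent.P215Z.Top.Defs
import Vale.Agent.P215Z.Top.CoverFree
import Vale.Agent.P215Z.Top.CoverA

noncomputable section
namespace Vale.Agent.P215Z
open P215.H788

namespace Cov

open Set Topology

/-- trivial monodromy of a double point loop identifies the lifts -/
theorem lift_eq {E X A G : Type} [TopologicalSpace E] [TopologicalSpace X] [TopologicalSpace A]
    [Group G] [MulAction G E] {p : E → X} (hp : IsQuotientCoveringMap p G) {F : A → E}
    (hF : Continuous F) {a0 a b : A} (m0 : Path a0 a) (m : Path a b) {x y : X}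
    (e0 : p ⁻¹' {x}) (he : F a0 = e0) (c : Path x y) (d : Path y y)
    (hc : ∀ t, c t = p (F (m0 t))) (hd : ∀ t, d t = p (F (m t)))
    (h : hp.isCoveringMap.monodromy (Path.Homotopic.Quotient.mk ((c.trans d).trans c.symm)) e0 =
      e0) : F a = F b := by
  have hab : p (F b) = p (F a) := by
    have h0 := hd 0
    have h1 := hd 1
    rw [d.source, m.source] at h0
    rw [d.target, m.target] at h1
    rw [← h0, ← h1]
  obtain ⟨g, hg⟩ := hp.apply_eq_iff_mem_orbit.1 hab
  have hg' : F b = g • F a := hg.symm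
  let Γ : Path (F a0) (g • F a0) := ((m0.map hF).trans (m.map hF)).trans
    (((m0.map hF).symm.map (hp.continuous_const_smul g)).cast hg' rfl)
  have hΓ : p ∘ Γ = (c.trans d).trans c.symm := by
    funext t
    simp only [Γ, Function.comp_apply, Path.trans_apply]
    split_ifs
    · exact (hc _).symm
    · exact (hd _).symm
    · exact (hp.map_smul g).trans (hc _).symm
  have h1 : (Γ : C(unitInterval, E)) = hp.isCoveringMap.liftPath ((c.trans d).trans c.symm) e0
      ((Path.source _).trans e0.2.symm) :=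
    (hp.isCoveringMap.eq_liftPath_iff' _).2 ⟨hΓ, Γ.source.trans he⟩
  have h2 : hp.isCoveringMap.liftPath ((c.trans d).trans c.symm) e0
      ((Path.source _).trans e0.2.symm) 1 = e0 := congrArg Subtype.val h
  rw [← h1] at h2
  have h3 : g • F a0 = (1 : G) • F a0 := by
    rw [one_smul]
    exact Γ.target.symm.trans (h2.trans he.symm)
  have h4 : g = 1 := hp.isCancelSMul.right_cancel _ _ _ h3
  rw [hg', h4, one_smul]

variable (e : EmbData)

/-- the thickening in the base -/
def jm : G0.Thickening → Wb := Quot.lift (fun x => pr (pt 1 (e.emb x))) fun x y h => by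
  rcases e.glue x y h with h1 | ⟨i, h1, h2⟩
  · rw [h1]
  · rw [h2, pt_glue 1 h1, pr_pt]

theorem continuous_jm : Continuous (jm e) :=
  continuous_quot_lift _ (cover.continuous.comp ((continuous_pt 1).comp e.cont))

theorem jm_inj : Function.Injective (jm e) := by
  rintro ⟨x⟩ ⟨y⟩ h
  obtain ⟨g, hg⟩ := pr_eq h
  rcases pt_eq.1 hg with ⟨-, k⟩ | ⟨i, k1, -, k3⟩ | ⟨i, k1, -, k3⟩
  · exact e.inj x y k
  · exact e.inj' x y i k1 k3
  · exact (e.inj' y x i k1 k3).symm

theorem jm_attach (z : Circ) (v : Disc) (hv : v.1.1 = 0) : jm e (G0.attach (z, v)) =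
    pr (pt 1 ![15, 9 / 2 + 3 / 4 * z.1.2, 5 / 2 + 3 / 4 * z.1.1, 3 / 2 + v.1.2]) := by
  rw [← e.att z v hv]
  rfl

/-- the boundary curve -/
def bc (z : Circ) : R4 := ![15, 9 / 2 + 3 / 4 * z.1.2, 5 / 2 + 3 / 4 * z.1.1, 3 / 2]

theorem continuous_bc : Continuous bc := by
  refine continuous_pi fun j => ?_
  fin_cases j <;> simp only [bc] <;> simp <;> fun_prop

theorem jm_bc (z : Circ) : jm e (G0.attach (z, Disc.zero)) = pr (pt 1 (bc z)) := by
  rw [jm_attach e z Disc.zero rfl]
  simp [bc, Disc.zero]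

include e in
theorem bc_mem (z : Circ) : bc z ∈ OO := by
  have h := e.mem ⟨(.base 0, G0.attachE z.1 Disc.zero.1), G0.attachE_mem z Disc.zero⟩
  rw [e.att z Disc.zero rfl] at h
  simpa [bc, Disc.zero] using h

/-- the base point of the circle -/
def z0 : Circ := ⟨(1, 0), by simp [Prod.norm_mk]⟩

/-- the base point of the cover -/
def e0 : pr ⁻¹' {jm e G0.basePt} := ⟨pt 1 (bc z0), (jm_bc e z0).symm⟩

/-- the monodromy -/
def psi : FundamentalGroup G0.Thickening G0.basePt →* F3ᵐᵒᵖ :=
  (cover.fundamentalGroupToMulOpposite (e0 e)).comp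
    (FundamentalGroup.map ⟨jm e, continuous_jm e⟩ G0.basePt)

variable {e} {D : FramedDisc G0.Thickening G0.attach}

theorem conv : Convex ℝ (Metric.closedBall (0 : ℝ × ℝ) 1) := convex_closedBall _ _

theorem exists_lift (e : EmbData) (D : FramedDisc G0.Thickening G0.attach) :
    ∃ F : Disc → Wt, Continuous F ∧ (∀ x, pr (F x) = jm e (D.map (x, Disc.zero))) ∧
      ∀ z : Circ, F z.toDisc = pt 1 (bc z) := by
  have : ContractibleSpace Disc := conv.contractibleSpace ⟨0, by simp⟩
  have : LocallyPathConnectedSpace Disc := conv.locallyPathConnectedSpace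
  have hc : Continuous fun x : Disc => jm e (D.map (x, Disc.zero)) :=
    (continuous_jm e).comp (D.continuous_map.comp (Continuous.prodMk_left _))
  have hb : ∀ z : Circ, pr (pt 1 (bc z)) = jm e (D.map (z.toDisc, Disc.zero)) := fun z => by
    rw [D.boundary, jm_bc]
  obtain ⟨F, ⟨h0, h1⟩, -⟩ := cover.isCoveringMap.existsUnique_continuousMap_lifts ⟨_, hc⟩
    z0.toDisc (pt 1 (bc z0)) (hb z0)
  refine ⟨F, F.continuous, congrFun h1, fun z => ?_⟩
  have : PreconnectedSpace Circ := Subtype.preconnectedSpace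
    (isPreconnected_sphere (by simp [← Module.finrank_eq_rank]) _ _)
  have hi : Continuous Circ.toDisc := continuous_subtype_val.subtype_mk _
  exact congrFun (cover.isCoveringMap.eq_of_comp_eq (g₁ := fun z : Circ => F z.toDisc)
    (g₂ := fun z : Circ => pt 1 (bc z)) (F.continuous.comp hi)
    ((continuous_pt 1).comp continuous_bc)
    (funext fun z => (congrFun h1 z.toDisc).trans (hb z).symm) z0 h0) z

theorem lift_double (hK : D.Kills (psi e)) {F : Disc → Wt} (hF : Continuous F)
    (h1 : ∀ x, pr (F x) = jm e (D.map (x, Disc.zero))) (h2 : ∀ z : Circ, F z.toDisc = pt 1 (bc z))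
    (k : Fin D.n) : F (D.a k Disc.zero) = F (D.b k Disc.zero) := by
  have : ContractibleSpace Disc := conv.contractibleSpace ⟨0, by simp⟩
  let m0 : Path z0.toDisc (D.a k Disc.zero) := PathConnectedSpace.somePath _ _
  let m : Path (D.a k Disc.zero) (D.b k Disc.zero) := PathConnectedSpace.somePath _ _
  have hs : Continuous fun x : Disc => (x, Disc.zero) := Continuous.prodMk_left _
  let c : Path G0.basePt (D.map (D.fst k)) :=
    (m0.map (D.continuous_map.comp hs)).cast (D.boundary z0 Disc.zero).symm rfl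
  let l : Path (D.fst k) (D.snd k) := m.map hs
  have h3 := cover.fundamentalGroupToMulOpposite_eq_one_iff.1 (hK k c l)
  refine lift_eq cover hF m0 m (e0 e) (h2 z0) (c.map (continuous_jm e))
    ((D.doublePointLoop k l).map (continuous_jm e)) (fun t => (h1 _).symm)
    (fun t => (h1 _).symm) ?_
  rw [Path.map_symm, ← Path.map_trans, ← Path.map_trans]
  exact h3

theorem lift_inj (hK : D.Kills (psi e)) {F : Disc → Wt} (hF : Continuous F)
    (h1 : ∀ x, pr (F x) = jm e (D.map (x, Disc.zero))) (h2 : ∀ z : Circ, F z.toDisc = pt 1 (bc z))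
    {x y : Disc} (h : pr (F x) = pr (F y)) : F x = F y := by
  rw [h1, h1] at h
  rcases D.injective_map _ _ (jm_inj e h) with k | ⟨k, u, v, ⟨k1, k2⟩ | ⟨k1, k2⟩⟩
  · rw [(Prod.mk.inj k).1]
  · obtain ⟨rfl, rfl⟩ := Prod.mk.inj k1
    obtain ⟨rfl, rfl⟩ := Prod.mk.inj k2
    exact lift_double hK hF h1 h2 k
  · obtain ⟨rfl, rfl⟩ := Prod.mk.inj k1
    obtain ⟨rfl, rfl⟩ := Prod.mk.inj k2
    exact (lift_double hK hF h1 h2 k).symm

theorem eq_bd {x : Disc} {z : Circ} {v : Disc} (h : D.map (x, Disc.zero) = G0.attach (z, v)) :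
    x = z.toDisc := by
  rw [← D.boundary] at h
  have hz : ‖z.toDisc.1‖ = 1 := mem_sphere_zero_iff_norm.1 z.2
  rcases D.injective_map _ _ h with k | ⟨k, u, v, ⟨-, k2⟩ | ⟨k1, -⟩⟩
  · exact (Prod.ext_iff.1 k).1
  · have k3 : z.toDisc = D.b k v := (Prod.ext_iff.1 k2).1
    have := D.interior_b k v
    rw [← k3, hz] at this
    exact absurd this (lt_irrefl _)
  · have k3 : z.toDisc = D.a k u := (Prod.ext_iff.1 k1).1
    have := D.interior_a k u
    rw [← k3, hz] at this
    exact absurd this (lt_irrefl _)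

theorem coord {w : Wt} {g : F3} {y : R4} (h : w = pt g y) : (rho g).symm (dev w) = y := by
  rw [h, dev_pt, Homeomorph.symm_apply_apply]

theorem of_mem {w : Wt} {g : F3} (h : w ∈ pt g '' OO) :
    w = pt g ((rho g).symm (dev w)) ∧ (rho g).symm (dev w) ∈ OO := by
  obtain ⟨y, hy, rfl⟩ := h
  rw [coord rfl]
  exact ⟨rfl, hy⟩

theorem lifted (hK : D.Kills (psi e)) : Nonempty Lifted0 := by
  obtain ⟨F, hF, h1, h2⟩ := exists_lift e D
  have hp : ∀ x, ∃ g q, F x = pt g (e.emb q) := fun x => by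
    obtain ⟨q, hq⟩ := Quot.exists_rep (D.map (x, Disc.zero))
    have h3 : pr (F x) = pr (pt 1 (e.emb q)) := by
      rw [h1, ← hq]
      rfl
    obtain ⟨g, hg⟩ := pr_eq h3
    exact ⟨g, q, hg⟩
  refine ⟨{
    f := fun g x => (rho g).symm (dev (F x))
    cont := fun g => (rho g).symm.continuous.comp (continuous_dev.comp hF)
    equiv := fun g i x => rho_symm g i _
    V := fun g => F ⁻¹' (pt g '' OO)
    isOpen := fun g => (isOpen_chart g isOpen_OO).preimage hF
    cover := fun x => ?_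
    mem := fun g x hx => ?_
    bot := fun g x hx h => absurd h (of_mem hx).2.2.1.ne'
    two := fun g g' x hx hx' => ?_
    toB := fun g i x hx h => ⟨_, Qo_sub (thR_mem h), ((of_mem hx).1.trans (pt_glue g h)).symm⟩
    toA := fun g i x hx h => ⟨_, Qo_sub h, ?_⟩
    sep := fun g g' x y hx hy h => ?_
    bd := fun z => ⟨⟨_, bc_mem e z, (h2 z).symm⟩, coord (h2 z)⟩
    strip := fun g x hx z τ k1 k2 h => ?_
    low := fun g x hx h => ?_ }⟩
  · obtain ⟨g, q, h⟩ := hp x
    exact ⟨g, _, e.mem q, h.symm⟩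
  · have := (of_mem hx).2
    exact ⟨this.1, this.2.1.le, this.2.2⟩
  · rcases pt_eq.1 ((of_mem hx).1.symm.trans (of_mem hx').1) with
      ⟨k, -⟩ | ⟨i, k1, k2, -⟩ | ⟨i, k1, k2, -⟩
    · exact Or.inl k
    · exact Or.inr (Or.inl ⟨i, k2, k1⟩)
    · exact Or.inr (Or.inr ⟨i, k2, k1⟩)
  · rw [pt_glue g h, ← rho_symm]
    exact (of_mem hx).1.symm
  · have k1 := (of_mem hx).1
    have k2 := (of_mem hy).1
    have k3 : pr (F x) = pr (F y) := by rw [k1, k2, pr_pt g, pr_pt g', h]
    have k4 := lift_inj hK hF h1 h2 k3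
    rw [k1, k2, h] at k4
    exact pt_inj k4
  · have k3 := (of_mem hx).1
    rw [h] at k3
    let v : Disc := ⟨(0, τ - 3 / 2), by
      simp only [mem_closedBall_zero_iff, Prod.norm_mk, Real.norm_eq_abs, abs_zero, sup_le_iff,
        abs_le]
      exact ⟨zero_le_one, by linarith, by linarith⟩⟩
    have k4 : jm e (D.map (x, Disc.zero)) = jm e (G0.attach (z, v)) := by
      rw [← h1, jm_attach e z v rfl, k3, pr_pt]
      simp [v]
    have k5 := eq_bd (jm_inj e k4)
    rw [k5, h2] at k3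
    rcases pt_eq.1 k3 with ⟨k, -⟩ | ⟨i, k, -, -⟩ | ⟨i, k, -, -⟩
    · exact k.symm
    · have := lt_of_Qo k
      norm_num [bc] at this
    · have := lt_of_Qo k
      norm_num at this
  · obtain ⟨g', q, k⟩ := hp x
    rcases pt_eq.1 ((of_mem hx).1.symm.trans k) with ⟨-, k1⟩ | ⟨i, k1, -, -⟩ | ⟨i, k1, -, k3⟩
    · have := e.low q
      rw [← k1] at this
      exact absurd h (not_lt.2 this)
    · exact ⟨_, k1⟩
    · exact ⟨(i, false), k3 ▸ thR_mem k1⟩

end Cov

theorem exists_phi (e : EmbData) :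
    ∃ φ : FundamentalGroup G0.Thickening G0.basePt →* FreeGroup (Fin 2),
      ∀ D : FramedDisc G0.Thickening G0.attach, D.Kills φ → Nonempty Lifted0 := by
  obtain ⟨ι, hι⟩ := Cov.exists_inj
  refine ⟨(ι.comp (MulEquiv.inv' F3).symm.toMonoidHom).comp (Cov.psi e), fun D hD =>
    Cov.lifted (e := e) (D := D) fun k c l => ?_⟩
  have h := hD k c l
  exact (hι.comp (MulEquiv.inv' F3).symm.injective) (h.trans (map_one
    (ι.comp (MulEquiv.inv' F3).symm.toMonoidHom)).symm)

end Vale.Agent.P215Z
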