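import Vale.Agent.P215Z.Top.Cover

/-!
# P215: the lifted disc for an arbitrary continuous disc
-/

noncomputable section
namespace Vale.Agent.P215Z
open P215.H788

/-- A continuous disc in the thickening whose boundary is the core of the attaching region, whose
interior misses the attaching region, and such that for any two points with the same image the loop
through them is mapped to the identity. -/
structure NullMap (G : CappedGrope) {Γ : Type} [Group Γ]
    (φ : FundamentalGroup G.Thickening G.basePt →* Γ) (f : Disc → G.Thickening) : Prop where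
  cont : Continuous f
  boundary : ∀ z : Circ, f z.toDisc = G.attach (z, Disc.zero)
  proper : ∀ (x : Disc) (z : Circ) (v : Disc), f x = G.attach (z, v) → ‖x.1‖ = 1
  kills : ∀ (x y : Disc) (h : f x = f y) (c : Path G.basePt (f x)) (l : Path x y),
    φ (FundamentalGroup.fromPath (Path.Homotopic.Quotient.mk
      ((c.trans ((l.map cont).cast rfl h)).trans c.symm))) = 1

namespace Cov

open Set Topology

variable {e : EmbData} {f : Disc → G0.Thickening}

theorem exists_liftS (e : EmbData) (hc : Continuous f)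
    (hb : ∀ z : Circ, f z.toDisc = G0.attach (z, Disc.zero)) :
    ∃ F : Disc → Wt, Continuous F ∧ (∀ x, pr (F x) = jm e (f x)) ∧
      ∀ z : Circ, F z.toDisc = pt 1 (bc z) := by
  have : ContractibleSpace Disc := conv.contractibleSpace ⟨0, by simp⟩
  have : LocallyPathConnectedSpace Disc := conv.locallyPathConnectedSpace
  have hc' : Continuous fun x : Disc => jm e (f x) := (continuous_jm e).comp hc
  have hb' : ∀ z : Circ, pr (pt 1 (bc z)) = jm e (f z.toDisc) := fun z => by
    rw [hb, jm_bc]
  obtain ⟨F, ⟨h0, h1⟩, -⟩ := cover.isCoveringMap.existsUnique_continuousMap_lifts ⟨_, hc'⟩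
    z0.toDisc (pt 1 (bc z0)) (hb' z0)
  refine ⟨F, F.continuous, congrFun h1, fun z => ?_⟩
  have : PreconnectedSpace Circ := Subtype.preconnectedSpace
    (isPreconnected_sphere (by simp [← Module.finrank_eq_rank]) _ _)
  have hi : Continuous Circ.toDisc := continuous_subtype_val.subtype_mk _
  exact congrFun (cover.isCoveringMap.eq_of_comp_eq (g₁ := fun z : Circ => F z.toDisc)
    (g₂ := fun z : Circ => pt 1 (bc z)) (F.continuous.comp hi)
    ((continuous_pt 1).comp continuous_bc)
    (funext fun z => (congrFun h1 z.toDisc).trans (hb' z).symm) z0 h0) z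

theorem lift_injS (hK : NullMap G0 (psi e) f) {F : Disc → Wt} (hF : Continuous F)
    (h1 : ∀ x, pr (F x) = jm e (f x)) (h2 : ∀ z : Circ, F z.toDisc = pt 1 (bc z))
    {x y : Disc} (h : pr (F x) = pr (F y)) : F x = F y := by
  rw [h1, h1] at h
  have hxy := jm_inj e h
  have : ContractibleSpace Disc := conv.contractibleSpace ⟨0, by simp⟩
  let m0 : Path z0.toDisc x := PathConnectedSpace.somePath _ _
  let m : Path x y := PathConnectedSpace.somePath _ _
  let c : Path G0.basePt (f x) := (m0.map hK.cont).cast (hK.boundary z0).symm rfl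
  have h3 := cover.fundamentalGroupToMulOpposite_eq_one_iff.1 (hK.kills x y hxy c m)
  refine lift_eq cover hF m0 m (e0 e) (h2 z0) (c.map (continuous_jm e))
    (((m.map hK.cont).cast rfl hxy).map (continuous_jm e)) (fun t => (h1 _).symm)
    (fun t => (h1 _).symm) ?_
  rw [Path.map_symm, ← Path.map_trans, ← Path.map_trans]
  exact h3

theorem liftedS (hK : NullMap G0 (psi e) f) : Nonempty Lifted0 := by
  obtain ⟨F, hF, h1, h2⟩ := exists_liftS e hK.cont hK.boundary
  have hp : ∀ x, ∃ g q, F x = pt g (e.emb q) := fun x => by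
    obtain ⟨q, hq⟩ := Quot.exists_rep (f x)
    have h3 : pr (F x) = pr (pt 1 (e.emb q)) := by
      rw [h1, ← hq]
      rfl
    obtain ⟨g, hg⟩ := pr_eq h3
    exact ⟨g, q, hg⟩
  refine ⟨{
    f := fun g x => (rho g).symm (dev (F x))
    cont := fun g => (rho g).symm.continuous.comp (continuous_dev.comp hF)
    equiv := fun g i x => rho_symm g i _
    V := fun g => F ⁻¹' (pt g '' OO)
    isOpen := fun g => (isOpen_chart g isOpen_OO).preimage hF
    cover := fun x => ?_
    mem := fun g x hx => ?_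
    bot := fun g x hx h => absurd h (of_mem hx).2.2.1.ne'
    two := fun g g' x hx hx' => ?_
    toB := fun g i x hx h => ⟨_, Qo_sub (thR_mem h), ((of_mem hx).1.trans (pt_glue g h)).symm⟩
    toA := fun g i x hx h => ⟨_, Qo_sub h, ?_⟩
    sep := fun g g' x y hx hy h => ?_
    bd := fun z => ⟨⟨_, bc_mem e z, (h2 z).symm⟩, coord (h2 z)⟩
    strip := fun g x hx z τ k1 k2 h => ?_
    low := fun g x hx h => ?_ }⟩
  · obtain ⟨g, q, h⟩ := hp x
    exact ⟨g, _, e.mem q, h.symm⟩
  · have := (of_mem hx).2
    exact ⟨this.1, this.2.1.le, this.2.2⟩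
  · rcases pt_eq.1 ((of_mem hx).1.symm.trans (of_mem hx').1) with
      ⟨k, -⟩ | ⟨i, k1, k2, -⟩ | ⟨i, k1, k2, -⟩
    · exact Or.inl k
    · exact Or.inr (Or.inl ⟨i, k2, k1⟩)
    · exact Or.inr (Or.inr ⟨i, k2, k1⟩)
  · rw [pt_glue g h, ← rho_symm]
    exact (of_mem hx).1.symm
  · have k1 := (of_mem hx).1
    have k2 := (of_mem hy).1
    have k3 : pr (F x) = pr (F y) := by rw [k1, k2, pr_pt g, pr_pt g', h]
    have k4 := lift_injS hK hF h1 h2 k3
    rw [k1, k2, h] at k4
    exact pt_inj k4
  · have k3 := (of_mem hx).1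
    rw [h] at k3
    let v : Disc := ⟨(0, τ - 3 / 2), by
      simp only [mem_closedBall_zero_iff, Prod.norm_mk, Real.norm_eq_abs, abs_zero, sup_le_iff,
        abs_le]
      exact ⟨zero_le_one, by linarith, by linarith⟩⟩
    have k4 : jm e (f x) = jm e (G0.attach (z, v)) := by
      rw [← h1, jm_attach e z v rfl, k3, pr_pt]
      simp [v]
    have k5 : x = Circ.toDisc ⟨x.1, mem_sphere_zero_iff_norm.2 (hK.proper x z v (jm_inj e k4))⟩ :=
      rfl
    rw [k5, h2] at k3
    rcases pt_eq.1 k3 with ⟨k, -⟩ | ⟨i, k, -, -⟩ | ⟨i, k, -, -⟩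
    · exact k.symm
    · have := lt_of_Qo k
      norm_num [bc] at this
    · have := lt_of_Qo k
      norm_num at this
  · obtain ⟨g', q, k⟩ := hp x
    rcases pt_eq.1 ((of_mem hx).1.symm.trans k) with ⟨-, k1⟩ | ⟨i, k1, -, -⟩ | ⟨i, k1, -, k3⟩
    · have := e.low q
      rw [← k1] at this
      exact absurd h (not_lt.2 this)
    · exact ⟨_, k1⟩
    · exact ⟨(i, false), k3 ▸ thR_mem k1⟩

end Cov

theorem exists_phiS (e : EmbData) :
    ∃ φ : FundamentalGroup G0.Thickening G0.basePt →* FreeGroup (Fin 2),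
      (∀ D : FramedDisc G0.Thickening G0.attach, D.Kills φ → Nonempty Lifted0) ∧
      ∀ f, NullMap G0 φ f → Nonempty Lifted0 := by
  obtain ⟨ι, hι⟩ := Cov.exists_inj
  have hi : ∀ a, (ι.comp (MulEquiv.inv' F3).symm.toMonoidHom).comp (Cov.psi e) a = 1 →
      Cov.psi e a = 1 := fun a h =>
    (hι.comp (MulEquiv.inv' F3).symm.injective) (h.trans (map_one
      (ι.comp (MulEquiv.inv' F3).symm.toMonoidHom)).symm)
  exact ⟨(ι.comp (MulEquiv.inv' F3).symm.toMonoidHom).comp (Cov.psi e), fun D hD =>
    Cov.lifted (e := e) (D := D) fun k c l => hi _ (hD k c l), fun f hf =>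
    Cov.liftedS (e := e) ⟨hf.cont, hf.boundary, hf.proper, fun x y h c l => hi _ (hf.kills x y h c l)⟩⟩

end Vale.Agent.P215Z
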