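import Vale.Agent.P215Z.Lat
import Vale.Agent.P215.H788.Defs

/-!
# P215: the example, its charts, and the continuous data
-/

noncomputable section

namespace Vale.Agent.P215Z

open P215.H788

abbrev R4 : Type := Fin 4 → ℝ

/-- The capped grope: genus one, genus one, three caps with one self plumbing each. -/
def G0 : CappedGrope where
  genera := [1]
  genera_ne_nil := by simp
  genera_pos := by simp
  plumbings := [((0, 0, true), (0, 0, true), false), ((1, 0, false), (1, 0, false), false),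
    ((1, 0, true), (1, 0, true), true)]
  isCapped := by simp [IsCapped, genusOf]

/-- the first three coordinates are in the open box and outside the closed caves -/
def O3 (y : R4) : Prop :=
  (∀ j : Fin 4, j ≠ 3 → 0 < y j ∧ y j < (boxHi j : ℝ)) ∧
    ∀ c ∈ caves, ∃ j : Fin 4, j ≠ 3 ∧ (y j < (c.1 j : ℝ) ∨ (c.2 j : ℝ) < y j)

def OO : Set R4 := {y | O3 y ∧ 0 < y 3 ∧ y 3 < 3}
def OO' : Set R4 := {y | O3 y ∧ 0 ≤ y 3 ∧ y 3 < 3}
def Qo (l : Lg) : Set R4 := {y | ∀ j, (org l j : ℝ) < y j ∧ y j < org l j + 3}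

def thR (i : Fin 3) (y : R4) : R4 :=
  fun j => y (ppi i j) + ((org (i, false) j - org (i, true) (ppi i j) : ℤ) : ℝ)

/-- The unplumbed thickening is embedded in the chart, compatibly with the plumbings. -/
structure EmbData where
  emb : G0.Pts → R4
  cont : Continuous emb
  mem : ∀ x, emb x ∈ OO
  low : ∀ x, 1 / 2 ≤ emb x 3
  glue : ∀ x y : G0.Pts, G0.Glue x.1 y.1 →
    emb x = emb y ∨ ∃ i, emb x ∈ Qo (i, true) ∧ emb y = thR i (emb x)
  inj : ∀ x y, emb x = emb y → (Quot.mk _ x : G0.Thickening) = Quot.mk _ y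
  inj' : ∀ x y i, emb x ∈ Qo (i, true) → emb y = thR i (emb x) →
    (Quot.mk _ x : G0.Thickening) = Quot.mk _ y
  att : ∀ (z : Circ) (v : Disc), v.1.1 = 0 →
    emb ⟨(.base 0, G0.attachE z.1 v.1), G0.attachE_mem z v⟩ =
      ![15, 9 / 2 + 3 / 4 * z.1.2, 5 / 2 + 3 / 4 * z.1.1, 3 / 2 + v.1.2]

/-- A lifted disc, seen in all charts; `V g` is the part of the disc in the chart `g`. -/
structure Lifted where
  f : F3 → Disc → R4
  cont : ∀ g, Continuous (f g)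
  equiv : ∀ g i x, f (g * FreeGroup.of i) x = thR i (f g x)
  V : F3 → Set Disc
  isOpen : ∀ g, IsOpen (V g)
  cover : ∀ x, ∃ g, x ∈ V g
  mem : ∀ g, ∀ x ∈ V g, f g x ∈ OO'
  bot : ∀ g, ∀ x ∈ V g, f g x 3 = 0 → 14 < f g x 0
  two : ∀ g g' x, x ∈ V g → x ∈ V g' → g = g' ∨
    (∃ i, g' = g * FreeGroup.of i ∧ f g x ∈ Qo (i, true)) ∨
    (∃ i, g = g' * FreeGroup.of i ∧ f g' x ∈ Qo (i, true))
  toB : ∀ g i, ∀ x ∈ V g, f g x ∈ Qo (i, true) → x ∈ V (g * FreeGroup.of i)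
  toA : ∀ g i, ∀ x ∈ V (g * FreeGroup.of i), f g x ∈ Qo (i, true) → x ∈ V g
  sep : ∀ g g' x y, x ∈ V g → y ∈ V g' → f g x = f g' y → g = g'

/-- before the collar is added -/
structure Lifted0 extends Lifted where
  bd : ∀ z : Circ, z.toDisc ∈ V 1 ∧
    f 1 z.toDisc = ![15, 9 / 2 + 3 / 4 * z.1.2, 5 / 2 + 3 / 4 * z.1.1, 3 / 2]
  strip : ∀ g, ∀ x ∈ V g, ∀ (z : Circ) (τ : ℝ), 1 / 2 ≤ τ → τ ≤ 3 / 2 →
    f g x = ![15, 9 / 2 + 3 / 4 * z.1.2, 5 / 2 + 3 / 4 * z.1.1, τ] → g = 1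
  low : ∀ g, ∀ x ∈ V g, f g x 3 < 1 / 2 → ∃ l, f g x ∈ Qo l

/-- with the collar -/
structure Lifted1 extends Lifted where
  bd : ∀ z : Circ, z.toDisc ∈ V 1 ∧
    f 1 z.toDisc = ![15, 9 / 2 + 3 / 2 * z.1.2, 5 / 2 + 3 / 2 * z.1.1, 0]

end Vale.Agent.P215Z
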