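import Vale.Agent.P215Z.Top.Cover
import Vale.Agent.P215Z.Top.Cover.Mono

/-!
# P215: lifts of arbitrary singular discs
-/

noncomputable section
namespace Vale.Agent.P215Z
open P215.H788

/-- the loop which a coincidence `f x = f y` of a map of the disc determines, with a whisker `c`
and a path `l` in the disc -/
def coinLoop {W : Type} [TopologicalSpace W] {w₀ : W} (f : C(Disc, W)) {x y : Disc} (h : f x = f y)
    (c : Path w₀ (f x)) (l : Path x y) : FundamentalGroup W w₀ :=
  FundamentalGroup.fromPath (Path.Homotopic.Quotient.mk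
    ((c.trans ((l.map f.continuous).cast rfl h)).trans c.symm))

namespace Strong

open Cov Mono

theorem lift_eq' {E X : Type} [TopologicalSpace E] [TopologicalSpace X] {G : Type} [Group G]
    [MulAction G E] {p : E → X} (hp : IsQuotientCoveringMap p G) {x y : X} (e0 : p ⁻¹' {x})
    (c : Path x y) (d : Path y y) (ea eb : p ⁻¹' {y}) (Γ : Path ea.1 eb.1)
    (hΓ : ∀ t, p (Γ t) = d t)
    (h : hp.isCoveringMap.monodromy (Path.Homotopic.Quotient.mk ((c.trans d).trans c.symm)) e0 =
      e0) : ea = eb := by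
  have cov := hp.isCoveringMap
  obtain ⟨e1, h1⟩ := (cov.monodromy_bijective (Path.Homotopic.Quotient.mk c)).2 ea
  have h2 := congrFun ((hp.monodromy_eq_id_iff e0).2 h) e1
  have h3 : cov.monodromy (Path.Homotopic.Quotient.mk c.symm) ea = e1 := by
    rw [← h1, ← cov.monodromy_trans_apply, Path.Homotopic.Quotient.mk_symm,
      Path.Homotopic.Quotient.trans_symm, cov.monodromy_refl]
    rfl
  change cov.monodromy (Path.Homotopic.Quotient.mk ((c.trans d).trans c.symm)) e1 = e1 at h2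
  rw [Path.Homotopic.Quotient.mk_trans, Path.Homotopic.Quotient.mk_trans,
    cov.monodromy_trans_apply, cov.monodromy_trans_apply, h1, mono_of_lift cov d ea eb Γ hΓ] at h2
  exact (cov.monodromy_bijective _).1 (h3.trans h2.symm)

variable {e : EmbData} {f : C(Disc, G0.Thickening)}

theorem exists_lift (e : EmbData) (hb : ∀ z : Circ, f z.toDisc = G0.attach (z, Disc.zero)) :
    ∃ F : Disc → Wt, Continuous F ∧ (∀ x, pr (F x) = jm e (f x)) ∧
      ∀ z : Circ, F z.toDisc = pt 1 (bc z) := by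
  have hc : Continuous fun x : Disc => jm e (f x) := (continuous_jm e).comp f.continuous
  have hb' : ∀ z : Circ, pr (pt 1 (bc z)) = jm e (f z.toDisc) := fun z => by rw [hb, jm_bc]
  obtain ⟨F, ⟨h0, h1⟩, -⟩ := cover.isCoveringMap.existsUnique_continuousMap_lifts ⟨_, hc⟩
    z0.toDisc (pt 1 (bc z0)) (hb' z0)
  refine ⟨F, F.continuous, congrFun h1, fun z => ?_⟩
  exact congrFun (cover.isCoveringMap.eq_of_comp_eq (g₁ := fun z : Circ => F z.toDisc)
    (g₂ := fun z : Circ => pt 1 (bc z)) (F.continuous.comp continuous_toDisc)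
    ((continuous_pt 1).comp continuous_bc)
    (funext fun z => (congrFun h1 z.toDisc).trans (hb' z).symm) z0 h0) z

theorem lifted (hb : ∀ z : Circ, f z.toDisc = G0.attach (z, Disc.zero))
    (hpr : ∀ x z v, f x = G0.attach (z, v) → ‖x.1‖ = 1)
    (hK : ∀ x y (h : f x = f y), ∃ c l, psi e (coinLoop f h c l) = 1) : Nonempty Lifted0 := by
  obtain ⟨F, hF, h1, h2⟩ := exists_lift e hb
  have hinj : ∀ x y, pr (F x) = pr (F y) → F x = F y := by
    intro x y h
    have h' : f x = f y := jm_inj e (by rwa [h1, h1] at h)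
    obtain ⟨c, l, hl⟩ := hK x y h'
    have h3 := cover.fundamentalGroupToMulOpposite_eq_one_iff.1 hl
    refine congrArg Subtype.val (lift_eq' cover (e0 e) (c.map (continuous_jm e))
      (((l.map f.continuous).cast rfl h').map (continuous_jm e)) ⟨F x, h1 x⟩
      ⟨F y, (h1 y).trans (congrArg (jm e) h'.symm)⟩ (l.map hF) (fun t => h1 _) ?_)
    rw [Path.map_symm, ← Path.map_trans, ← Path.map_trans]
    exact h3
  have hp : ∀ x, ∃ g q, F x = pt g (e.emb q) := fun x => by
    obtain ⟨q, hq⟩ := Quot.exists_rep (f x)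
    have h3 : pr (F x) = pr (pt 1 (e.emb q)) := by
      rw [h1, ← hq]
      rfl
    obtain ⟨g, hg⟩ := pr_eq h3
    exact ⟨g, q, hg⟩
  refine ⟨{
    f := fun g x => (rho g).symm (dev (F x))
    cont := fun g => (rho g).symm.continuous.comp (continuous_dev.comp hF)
    equiv := fun g i x => rho_symm g i _
    V := fun g => F ⁻¹' (pt g '' OO)
    isOpen := fun g => (isOpen_chart g isOpen_OO).preimage hF
    cover := fun x => ?_
    mem := fun g x hx => ?_
    bot := fun g x hx h => absurd h (of_mem hx).2.2.1.ne'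
    two := fun g g' x hx hx' => ?_
    toB := fun g i x hx h => ⟨_, Qo_sub (thR_mem h), ((of_mem hx).1.trans (pt_glue g h)).symm⟩
    toA := fun g i x hx h => ⟨_, Qo_sub h, ?_⟩
    sep := fun g g' x y hx hy h => ?_
    bd := fun z => ⟨⟨_, bc_mem e z, (h2 z).symm⟩, coord (h2 z)⟩
    strip := fun g x hx z τ k1 k2 h => ?_
    low := fun g x hx h => ?_ }⟩
  · obtain ⟨g, q, h⟩ := hp x
    exact ⟨g, _, e.mem q, h.symm⟩
  · have := (of_mem hx).2
    exact ⟨this.1, this.2.1.le, this.2.2⟩
  · rcases pt_eq.1 ((of_mem hx).1.symm.trans (of_mem hx').1) with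
      ⟨k, -⟩ | ⟨i, k1, k2, -⟩ | ⟨i, k1, k2, -⟩
    · exact Or.inl k
    · exact Or.inr (Or.inl ⟨i, k2, k1⟩)
    · exact Or.inr (Or.inr ⟨i, k2, k1⟩)
  · rw [pt_glue g h, ← rho_symm]
    exact (of_mem hx).1.symm
  · have k1 := (of_mem hx).1
    have k2 := (of_mem hy).1
    have k3 : pr (F x) = pr (F y) := by rw [k1, k2, pr_pt g, pr_pt g', h]
    have k4 := hinj x y k3
    rw [k1, k2, h] at k4
    exact pt_inj k4
  · have k3 := (of_mem hx).1
    rw [h] at k3
    let v : Disc := ⟨(0, τ - 3 / 2), by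
      simp only [mem_closedBall_zero_iff, Prod.norm_mk, Real.norm_eq_abs, abs_zero, sup_le_iff,
        abs_le]
      exact ⟨zero_le_one, by linarith, by linarith⟩⟩
    have k4 : jm e (f x) = jm e (G0.attach (z, v)) := by
      rw [← h1, jm_attach e z v rfl, k3, pr_pt]
      simp [v]
    have k5 : x = Circ.toDisc ⟨x.1, mem_sphere_zero_iff_norm.2 (hpr x z v (jm_inj e k4))⟩ := rfl
    rw [k5, h2] at k3
    rcases pt_eq.1 k3 with ⟨k, -⟩ | ⟨i, k, -, -⟩ | ⟨i, k, -, -⟩
    · exact k.symm
    · have := lt_of_Qo k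
      norm_num [bc] at this
    · have := lt_of_Qo k
      norm_num at this
  · obtain ⟨g', q, k⟩ := hp x
    rcases pt_eq.1 ((of_mem hx).1.symm.trans k) with ⟨-, k1⟩ | ⟨i, k1, -, -⟩ | ⟨i, k1, -, k3⟩
    · have := e.low q
      rw [← k1] at this
      exact absurd h (not_lt.2 this)
    · exact ⟨_, k1⟩
    · exact ⟨(i, false), k3 ▸ thR_mem k1⟩

end Strong

theorem exists_phi_strong (e : EmbData) :
    ∃ φ : FundamentalGroup G0.Thickening G0.basePt →* FreeGroup (Fin 2),
      ∀ f : C(Disc, G0.Thickening), (∀ z : Circ, f z.toDisc = G0.attach (z, Disc.zero)) →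
        (∀ x z v, f x = G0.attach (z, v) → ‖x.1‖ = 1) →
        (∀ x y (h : f x = f y), ∃ c l, φ (coinLoop f h c l) = 1) → Nonempty Lifted0 := by
  obtain ⟨ι, hι⟩ := exists_inj32
  refine ⟨(ι.comp (MulEquiv.inv' F3).symm.toMonoidHom).comp (Cov.psi e), fun f hb hpr hK =>
    Strong.lifted (e := e) hb hpr fun x y h => ?_⟩
  obtain ⟨c, l, h1⟩ := hK x y h
  exact ⟨c, l, (hι.comp (MulEquiv.inv' F3).symm.injective) (h1.trans (map_one
    (ι.comp (MulEquiv.inv' F3).symm.toMonoidHom)).symm)⟩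

end Vale.Agent.P215Z
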